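import Vale.Agent.P054.H978b.Ball

/-! Covering of a ball by smaller balls (counting form) and selection of a ball of nearly maximal
normalised mass (helper978). -/

namespace Vale.Agent.P054.H978b

open Metric Set
open Vale.Agent.P118.FD

variable {d : ℕ}

theorem dist_le_of_coord {x y : Ed d} {a : ℝ} (ha : 0 ≤ a) (h : ∀ i, |x i - y i| ≤ a) :
    dist x y ≤ (d + 1) * a := by
  rw [EuclideanSpace.dist_eq]
  have hd : (0:ℝ) ≤ d := Nat.cast_nonneg d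
  refine Real.sqrt_le_iff.2 ⟨by positivity, ?_⟩
  calc ∑ i, dist (x i) (y i) ^ 2 ≤ ∑ _i : Fin d, a ^ 2 := by
        refine Finset.sum_le_sum fun i _ => ?_
        rw [Real.dist_eq]
        exact pow_le_pow_left₀ (abs_nonneg _) (h i) 2
    _ = d * a ^ 2 := by simp
    _ ≤ ((d + 1) * a) ^ 2 := by
        rw [mul_pow]
        refine mul_le_mul_of_nonneg_right ?_ (sq_nonneg a)
        nlinarith

theorem coord_le_dist (x y : Ed d) (i : Fin d) : |x i - y i| ≤ dist x y := by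
  rw [dist_eq_norm]
  have h7 : ‖(x - y) i‖ ≤ ‖x - y‖ := PiLp.norm_apply_le (x - y) i
  simpa [Real.norm_eq_abs] using h7

/-- a ball of radius `ρ` is covered by `O((ρ/r)^d)` balls of radius `r` -/
theorem cover (P : Finset (Ed d)) (x : Ed d) {ρ r : ℝ} (hr : 0 < r) (hρ : r ≤ ρ) {N : ℝ}
    (hN : ∀ y, (cnt P y r : ℝ) ≤ N) :
    (cnt P x ρ : ℝ) ≤ ((2 * d + 5) * (ρ / r)) ^ d * N := by
  classical
  have hd : (0:ℝ) ≤ d := Nat.cast_nonneg d
  have hρ0 : 0 < ρ := hr.trans_le hρ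
  have hN0 : 0 ≤ N := (Nat.cast_nonneg _).trans (hN x)
  set a : ℝ := r / (d + 1) with ha
  have ha0 : 0 < a := by positivity
  set M : ℤ := ⌈ρ / a⌉ with hM
  have hM0 : 0 ≤ M := Int.ceil_nonneg (by positivity)
  set g : Ed d → (Fin d → ℤ) := fun p i => ⌊(p i - x i) / a⌋ with hg
  set P' := P.filter fun p => dist p x ≤ ρ with hP'
  have himg : P'.image g ⊆ Fintype.piFinset fun _ : Fin d => Finset.Icc (-M) M := by
    intro v hv
    obtain ⟨p, hp, rfl⟩ := Finset.mem_image.1 hv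
    rw [Fintype.mem_piFinset]
    intro i
    have h1 : |p i - x i| ≤ ρ := (coord_le_dist p x i).trans (Finset.mem_filter.1 hp).2
    have h2 := abs_le.1 h1
    have h3 : (p i - x i) / a ≤ ρ / a := by gcongr; exact h2.2
    have h4 : -(ρ / a) ≤ (p i - x i) / a := by
      rw [← neg_div]
      gcongr
      exact h2.1
    have h5 : ρ / a ≤ M := Int.le_ceil _
    rw [Finset.mem_Icc]
    constructor
    · rw [hg]
      refine Int.le_floor.2 ?_
      push_cast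
      linarith
    · rw [hg]
      have h6 := Int.floor_le ((p i - x i) / a)
      have h7 : ((⌊(p i - x i) / a⌋ : ℤ) : ℝ) ≤ (M : ℝ) := by linarith
      exact_mod_cast h7
  have hcard : ((P'.image g).card : ℝ) ≤ ((2 * d + 5) * (ρ / r)) ^ d := by
    have h1 := Finset.card_le_card himg
    rw [Fintype.card_piFinset] at h1
    simp only [Int.card_Icc, Finset.prod_const, Finset.card_univ, Fintype.card_fin] at h1
    have h2 : (((M + 1 - -M).toNat : ℕ) : ℝ) = 2 * M + 1 := by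
      have h3 : ((M + 1 - -M).toNat : ℤ) = 2 * M + 1 := by
        rw [Int.toNat_of_nonneg (by omega)]
        ring
      exact_mod_cast h3
    calc ((P'.image g).card : ℝ) ≤ (((M + 1 - -M).toNat ^ d : ℕ) : ℝ) := by exact_mod_cast h1
      _ = (2 * (M:ℝ) + 1) ^ d := by rw [Nat.cast_pow, h2]
      _ ≤ ((2 * d + 5) * (ρ / r)) ^ d := by
          have hM' : (0:ℝ) ≤ M := by exact_mod_cast hM0
          refine pow_le_pow_left₀ (by linarith) ?_ d
          have h4 : (M:ℝ) ≤ ρ / a + 1 := (Int.ceil_lt_add_one _).le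
          have h5 : ρ / a = (d + 1) * (ρ / r) := by
            rw [ha]
            field_simp
          have h6 : 1 ≤ ρ / r := (one_le_div hr).2 hρ
          rw [h5] at h4
          nlinarith
  have hfib : ∀ v ∈ P'.image g, (P'.filter fun p => g p = v).card ≤ ⌊N⌋₊ := by
    intro v hv
    obtain ⟨p₀, hp₀, rfl⟩ := Finset.mem_image.1 hv
    refine Nat.le_floor ((Nat.cast_le.2 (Finset.card_le_card ?_)).trans (hN p₀))
    intro p hp
    obtain ⟨h1, h2⟩ := Finset.mem_filter.1 hp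
    refine Finset.mem_filter.2 ⟨(Finset.mem_filter.1 h1).1, ?_⟩
    have h3 : ∀ i, |p i - p₀ i| ≤ a := by
      intro i
      have h4 := Int.abs_sub_lt_one_of_floor_eq_floor (congrFun h2 i)
      rw [← sub_div, abs_div, abs_of_pos ha0, div_lt_one ha0] at h4
      have h5 : p i - x i - (p₀ i - x i) = p i - p₀ i := by ring
      rw [h5] at h4
      exact h4.le
    refine (dist_le_of_coord ha0.le h3).trans (le_of_eq ?_)
    rw [ha]
    field_simp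
  have h1 := Finset.card_le_mul_card_image P' ⌊N⌋₊ hfib
  have h2 : (cnt P x ρ : ℝ) ≤ (⌊N⌋₊ : ℝ) * ((P'.image g).card : ℝ) := by
    unfold cnt
    exact_mod_cast h1
  calc (cnt P x ρ : ℝ) ≤ (⌊N⌋₊ : ℝ) * ((P'.image g).card : ℝ) := h2
    _ ≤ N * ((2 * d + 5) * (ρ / r)) ^ d :=
        mul_le_mul (Nat.floor_le hN0) hcard (Nat.cast_nonneg _) hN0
    _ = _ := mul_comm _ _

theorem cnt_le_card (P : Finset (Ed d)) (x : Ed d) (r : ℝ) : cnt P x r ≤ P.card :=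
  Finset.card_filter_le _ _

theorem cnt_eq_card {P : Finset (Ed d)} {x : Ed d} {r : ℝ} (h : ∀ p ∈ P, dist p x ≤ r) :
    cnt P x r = P.card := by
  unfold cnt
  rw [Finset.filter_true_of_mem h]

/-- selection of a ball of nearly maximal normalised mass -/
theorem exists_sel (P : Finset (Ed d)) (x₀ : Ed d) {R ρ₀ s : ℝ} (hρ₀ : 0 < ρ₀) (hρ₁ : ρ₀ ≤ 1)
    (hs : 0 < s) (hP : 0 < P.card) (hPR : ∀ p ∈ P, dist p x₀ ≤ R) :
    ∃ (x : Ed d) (ρ : ℝ), ρ₀ ≤ ρ ∧ ρ ≤ 1 ∧ (P.card : ℝ) * ρ ^ s ≤ 2 * cnt P x (ρ * R) ∧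
      ∀ (y : Ed d) (ρ' : ℝ), ρ₀ ≤ ρ' → ρ' ≤ 1 →
        (cnt P y (ρ' * R) : ℝ) ≤ 2 * cnt P x (ρ * R) * (ρ' / ρ) ^ s := by
  set V : Set ℝ := {v | ∃ (x : Ed d) (ρ : ℝ), ρ₀ ≤ ρ ∧ ρ ≤ 1 ∧
    v = cnt P x (ρ * R) * (ρ ^ s)⁻¹} with hV
  have hbdd : BddAbove V := by
    refine ⟨P.card * (ρ₀ ^ s)⁻¹, ?_⟩
    rintro v ⟨x, ρ, h1, h2, rfl⟩
    have h3 : (cnt P x (ρ * R) : ℝ) ≤ P.card := by exact_mod_cast cnt_le_card P x _
    have h4 : (ρ ^ s)⁻¹ ≤ (ρ₀ ^ s)⁻¹ :=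
      inv_anti₀ (by positivity) (Real.rpow_le_rpow hρ₀.le h1 hs.le)
    have h5 : 0 < ρ := hρ₀.trans_le h1
    exact mul_le_mul h3 h4 (by positivity) (Nat.cast_nonneg _)
  have hPc : (0:ℝ) < P.card := by exact_mod_cast hP
  have hmem : (P.card : ℝ) ∈ V := by
    refine ⟨x₀, 1, hρ₁, le_rfl, ?_⟩
    rw [one_mul, cnt_eq_card hPR]
    simp
  have h1 : (P.card : ℝ) ≤ sSup V := le_csSup hbdd hmem
  have h2 : sSup V / 2 < sSup V := by linarith
  obtain ⟨v, hv, hv2⟩ := exists_lt_of_lt_csSup ⟨_, hmem⟩ h2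
  obtain ⟨x, ρ, h3, h4, rfl⟩ := hv
  have hρ : 0 < ρ := hρ₀.trans_le h3
  have hρs : 0 < ρ ^ s := by positivity
  refine ⟨x, ρ, h3, h4, ?_, ?_⟩
  · have h5 : (P.card : ℝ) ≤ 2 * (cnt P x (ρ * R) * (ρ ^ s)⁻¹) := by linarith
    calc (P.card : ℝ) * ρ ^ s ≤ 2 * (cnt P x (ρ * R) * (ρ ^ s)⁻¹) * ρ ^ s :=
          mul_le_mul_of_nonneg_right h5 hρs.le
      _ = _ := by field_simp
  · intro y ρ' h5 h6
    have hρ' : 0 < ρ' := hρ₀.trans_le h5
    have hρs' : 0 < ρ' ^ s := by positivity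
    have h7 : (cnt P y (ρ' * R) : ℝ) * (ρ' ^ s)⁻¹ ≤ sSup V := le_csSup hbdd ⟨y, ρ', h5, h6, rfl⟩
    have h8 : (cnt P y (ρ' * R) : ℝ) * (ρ' ^ s)⁻¹ ≤ 2 * (cnt P x (ρ * R) * (ρ ^ s)⁻¹) := by
      linarith
    rw [Real.div_rpow hρ'.le hρ.le]
    calc (cnt P y (ρ' * R) : ℝ) = (cnt P y (ρ' * R) : ℝ) * (ρ' ^ s)⁻¹ * ρ' ^ s := by
          field_simp
      _ ≤ 2 * (cnt P x (ρ * R) * (ρ ^ s)⁻¹) * ρ' ^ s := mul_le_mul_of_nonneg_right h8 hρs'.le
      _ = _ := by ring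

end Vale.Agent.P054.H978b
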