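import Vale.Agent.P054.H978b.Main
import Vale.Agent.P054.H978b.Cover

/-! Consequences of the discrete even dimensional Falconer theorem: sets of dimension `> d/2`, and
the one-scale inequality for arbitrary sets (helper978). -/

namespace Vale.Agent.P054.H978b

open Metric Set
open Vale.Agent.P118.FD

variable {d : ℕ}

/-- the set of distances of distinct points -/
def DS (P : Finset (Ed d)) : Set ℝ := {t | ∃ p ∈ P, ∃ p' ∈ P, p ≠ p' ∧ dist p p' = t}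

theorem DS_finite (P : Finset (Ed d)) : (DS P).Finite := by
  classical
  refine ((P ×ˢ P).image fun z => dist z.1 z.2).finite_toSet.subset ?_
  rintro t ⟨p, hp, p', hp', _, rfl⟩
  exact Finset.mem_coe.2 (Finset.mem_image.2 ⟨(p, p'), Finset.mem_product.2 ⟨hp, hp'⟩, rfl⟩)

theorem card_le_DS {P : Finset (Ed d)} {T : Finset ℝ} (h : ∀ t ∈ T, t ∈ DS P) :
    T.card ≤ (DS P).ncard := by
  rw [← Set.ncard_coe_finset]
  exact Set.ncard_le_ncard (fun t ht => h t ht) (DS_finite P)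

theorem one_le_DS {P : Finset (Ed d)} (h : 2 ≤ P.card) : 1 ≤ (DS P).ncard := by
  obtain ⟨p, hp, p', hp', hne⟩ := Finset.one_lt_card.1 (by omega : 1 < P.card)
  have := card_le_DS (P := P) (T := {dist p p'}) (by
    intro t ht
    rw [Finset.mem_singleton] at ht
    exact ⟨p, hp, p', hp', hne, ht.symm⟩)
  simpa using this

theorem DS_mono {P Q : Finset (Ed d)} (h : P ⊆ Q) : DS P ⊆ DS Q := by
  rintro t ⟨p, hp, p', hp', hne, ht⟩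
  exact ⟨p, h hp, p', h hp', hne, ht⟩

/-- **sets of dimension `> d/2`** -/
theorem mainII {q : ℕ} (hq : 1 ≤ q) {s : ℝ} (hs : (q:ℝ) < s) {ε : ℝ} (hε : 0 < ε) :
    ∃ η : ℝ, 0 < η ∧ ∃ c : ℝ, 0 < c ∧ ∀ (P : Finset (Ed (2 * q))) (x₀ : Ed (2 * q)) (R : ℝ),
      2 ≤ P.card → 0 < R → (∀ p ∈ P, dist p x₀ ≤ R) →
      (∀ x, ∀ r : ℝ, R * (P.card : ℝ) ^ (-(1 / s)) ≤ r → r ≤ R →
        (cnt P x r : ℝ) ≤ (P.card : ℝ) ^ (1 + η) * (r / R) ^ s) →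
      c * (P.card : ℝ) ^ (1 / (q:ℝ) - ε) ≤ ((DS P).ncard : ℝ) := by
  have hq0 : (1:ℝ) ≤ q := by exact_mod_cast hq
  have hs0 : 0 < s := by linarith
  set s₁ : ℝ := min s (q + ε / 2) with hs₁
  have h1 : (q:ℝ) < s₁ := lt_min hs (by linarith)
  have hs₁0 : 0 < s₁ := by linarith
  obtain ⟨A, c, hc, hmain⟩ := mainI hq h1
  set η : ℝ := ε / (2 * (A + 1)) with hη
  have hA0 : (0:ℝ) ≤ A := Nat.cast_nonneg A
  have hη0 : 0 < η := by positivity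
  refine ⟨η, hη0, c, hc, ?_⟩
  intro P x₀ R hP hR hPR hfr
  set n : ℝ := (P.card : ℝ) with hn
  have hn2 : (2:ℝ) ≤ n := by rw [hn]; exact_mod_cast hP
  have hn0 : 0 < n := by linarith
  have hn1 : 1 ≤ n := by linarith
  have hK : 1 ≤ n ^ η := Real.one_le_rpow hn1 hη0.le
  have hδ0 : 0 < n ^ (-(1 / s₁)) := by positivity
  have hδ1 : n ^ (-(1 / s₁)) ≤ 1 :=
    Real.rpow_le_one_of_one_le_of_nonpos hn1 (by rw [neg_nonpos]; positivity)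
  obtain ⟨T, hT, _, hTc⟩ := hmain P x₀ R (n ^ (-(1 / s₁))) (n ^ η) hP hR hδ0 hδ1 hK hPR (by
    intro x r hr1 hr2
    have hr0 : 0 < r := lt_of_lt_of_le (mul_pos hδ0 hR) hr1
    have hrR : r / R ≤ 1 := (div_le_one hR).2 hr2
    have hrR0 : 0 < r / R := by positivity
    rcases le_or_gt (R * n ^ (-(1 / s))) r with h2 | h2
    · calc (cnt P x r : ℝ) ≤ n ^ (1 + η) * (r / R) ^ s := hfr x r h2 hr2
        _ ≤ n ^ (1 + η) * (r / R) ^ s₁ := by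
            refine mul_le_mul_of_nonneg_left ?_ (by positivity)
            exact Real.rpow_le_rpow_of_exponent_ge hrR0 hrR (min_le_left _ _)
        _ = n ^ η * n * (r / R) ^ s₁ := by
            rw [Real.rpow_add hn0, Real.rpow_one]
            ring
    · have h3 : R * n ^ (-(1 / s)) ≤ R := by
        refine mul_le_of_le_one_right hR.le ?_
        exact Real.rpow_le_one_of_one_le_of_nonpos hn1 (by rw [neg_nonpos]; positivity)
      have h4 := hfr x _ le_rfl h3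
      have h5 : (R * n ^ (-(1 / s)) / R) ^ s = n⁻¹ := by
        rw [mul_div_cancel_left₀ _ hR.ne', ← Real.rpow_mul hn0.le, ← Real.rpow_neg_one]
        congr 1
        field_simp
      rw [h5] at h4
      have h6 : n ^ (1 + η) * n⁻¹ = n ^ η := by
        rw [Real.rpow_add hn0, Real.rpow_one]
        field_simp
      rw [h6] at h4
      have h7 : n⁻¹ ≤ (r / R) ^ s₁ := by
        have h8 : n ^ (-(1 / s₁)) ≤ r / R := by
          rw [le_div_iff₀ hR]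
          exact hr1
        calc n⁻¹ = (n ^ (-(1 / s₁))) ^ s₁ := by
              rw [← Real.rpow_mul hn0.le, ← Real.rpow_neg_one]
              congr 1
              field_simp
          _ ≤ _ := Real.rpow_le_rpow hδ0.le h8 hs₁0.le
      calc (cnt P x r : ℝ) ≤ cnt P x (R * n ^ (-(1 / s))) := by
            exact_mod_cast cnt_mono P x h2.le
        _ ≤ n ^ η := h4
        _ = n ^ η * (n * n⁻¹) := by rw [mul_inv_cancel₀ hn0.ne', mul_one]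
        _ ≤ n ^ η * (n * (r / R) ^ s₁) := by gcongr
        _ = _ := by ring)
  have h9 : (T.card : ℝ) ≤ ((DS P).ncard : ℝ) := by
    exact_mod_cast card_le_DS hT
  refine le_trans ?_ (hTc.trans h9)
  have h10 : ((n ^ η) ^ A * n ^ (-(1 / s₁))) = n ^ (η * A - 1 / s₁) := by
    rw [← Real.rpow_natCast, ← Real.rpow_mul hn0.le, ← Real.rpow_add hn0]
    congr 1
  have h10' : c / n ^ (η * A - 1 / s₁) = c * n ^ (-(η * A - 1 / s₁)) := by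
    rw [Real.rpow_neg hn0.le]
    exact div_eq_mul_inv _ _
  rw [h10, h10']
  refine mul_le_mul_of_nonneg_left ?_ hc.le
  refine Real.rpow_le_rpow_of_exponent_le hn1 ?_
  have h11 : η * A ≤ ε / 2 := by
    rw [hη, div_mul_eq_mul_div, div_le_iff₀ (by positivity)]
    nlinarith
  have h12 : 1 / (q:ℝ) - 1 / s₁ ≤ ε / 2 := by
    have h13 : s₁ ≤ q + ε / 2 := min_le_right _ _
    rw [div_sub_div _ _ (by positivity) hs₁0.ne', div_le_iff₀ (by positivity)]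
    have h14 : 1 ≤ q * s₁ := by nlinarith
    nlinarith
  linarith

/-- choice of the exponent -/
theorem expo {q ε : ℝ} (hq0 : 1 ≤ q) (hε : 0 < ε) :
    ∃ s : ℝ, q < s ∧ s < 2 * q ∧ 1 / (2 * q - s) - 1 / s ≤ ε := by
  set θ : ℝ := min (1 / 2) (ε / 4) with hθ
  have hθ0 : 0 < θ := lt_min (by norm_num) (by linarith)
  have hθ1 : θ ≤ 1 / 2 := min_le_left _ _
  have hθ2 : θ ≤ ε / 4 := min_le_right _ _
  refine ⟨q + θ, by linarith, by linarith, ?_⟩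
  have h1 : 0 < 2 * q - (q + θ) := by linarith
  have h2 : 0 < q + θ := by linarith
  have hprod : 1 / 2 ≤ (2 * q - (q + θ)) * (q + θ) := by nlinarith
  rw [div_sub_div _ _ h1.ne' h2.ne', div_le_iff₀ (by positivity)]
  nlinarith [mul_le_mul_of_nonneg_left hprod hε.le]

/-- comparison of powers, first factor -/
theorem pow_cmp1 {q : ℕ} (hq0 : (1:ℝ) ≤ q) {n u v κ₂ : ℝ} (hn0 : 0 < n) (hu0 : 0 < u)
    (hun : u ≤ n) (hv0 : 0 < v) (hκ2q : 1 / (q:ℝ) ≤ κ₂) (hX1 : 1 ≤ u ^ (2 / (q:ℝ)) * v ^ 2) :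
    n ^ (-(κ₂ - 1 / q)) * (u ^ (1 / (q:ℝ)) * v ^ 2) ≤ (u * v ^ (2 * q)) ^ κ₂ := by
  have hqp : (0:ℝ) < q := by linarith
  have hXn : n⁻¹ ≤ u * v ^ (2 * q) := by
    have h27 : (u ^ (2 / (q:ℝ)) * v ^ 2) ^ (q:ℝ) = u ^ 2 * v ^ (2 * q) := by
      rw [Real.mul_rpow (by positivity) (by positivity), ← Real.rpow_mul hu0.le,
        div_mul_cancel₀ _ hqp.ne', Real.rpow_ofNat, Real.rpow_natCast, ← pow_mul]
    have h28 : 1 ≤ u ^ 2 * v ^ (2 * q) := by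
      rw [← h27]
      exact Real.one_le_rpow hX1 (by linarith)
    have h29 : n⁻¹ ≤ u⁻¹ := inv_anti₀ hu0 hun
    refine h29.trans ?_
    rw [inv_le_iff_one_le_mul₀ hu0]
    calc (1:ℝ) ≤ u ^ 2 * v ^ (2 * q) := h28
      _ = _ := by ring
  have h31 : (u * v ^ (2 * q)) ^ κ₂ =
      (u * v ^ (2 * q)) ^ (κ₂ - 1 / q) * (u * v ^ (2 * q)) ^ (1 / (q:ℝ)) := by
    rw [← Real.rpow_add (by positivity)]
    congr 1
    ring
  have h32 : (u * v ^ (2 * q)) ^ (1 / (q:ℝ)) = u ^ (1 / (q:ℝ)) * v ^ 2 := by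
    rw [Real.mul_rpow hu0.le (by positivity), ← Real.rpow_natCast v (2 * q),
      ← Real.rpow_mul hv0.le, ← Real.rpow_natCast v 2]
    congr 2
    push_cast
    field_simp
  have h33 : n ^ (-(κ₂ - 1 / q)) ≤ (u * v ^ (2 * q)) ^ (κ₂ - 1 / q) := by
    rw [Real.rpow_neg hn0.le, ← Real.inv_rpow hn0.le]
    exact Real.rpow_le_rpow (by positivity) hXn (by linarith)
  rw [h31, h32]
  exact mul_le_mul_of_nonneg_right h33 (by positivity)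

/-- comparison of powers, second factor -/
theorem pow_cmp2 {n u κ₁ κ : ℝ} (hn0 : 0 < n) (hu0 : 0 < u) (hun : u ≤ n) (hκ : κ₁ ≤ κ) :
    n ^ (-(κ - κ₁)) * u ^ κ ≤ u ^ κ₁ := by
  have h35 : u ^ κ = u ^ κ₁ * u ^ (κ - κ₁) := by
    rw [← Real.rpow_add hu0]
    congr 1
    ring
  have h36 : u ^ (κ - κ₁) ≤ n ^ (κ - κ₁) := Real.rpow_le_rpow hu0.le hun (by linarith)
  have h37 : 0 < n ^ (κ - κ₁) := by positivity
  rw [h35, Real.rpow_neg hn0.le]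
  calc (n ^ (κ - κ₁))⁻¹ * (u ^ κ₁ * u ^ (κ - κ₁))
      ≤ (n ^ (κ - κ₁))⁻¹ * (u ^ κ₁ * n ^ (κ - κ₁)) := by gcongr
    _ = u ^ κ₁ := by field_simp

theorem pow_cmp {q : ℕ} (hq0 : (1:ℝ) ≤ q) {n u v κ₁ κ₂ ε : ℝ} (hn1 : 1 ≤ n) (hu0 : 0 < u)
    (hun : u ≤ n) (hv0 : 0 < v) (hκ1q : κ₁ ≤ 1 / q) (hκ2q : 1 / (q:ℝ) ≤ κ₂)
    (hκ : κ₂ - κ₁ ≤ ε) (hX1 : 1 ≤ u ^ (2 / (q:ℝ)) * v ^ 2) :
    n ^ (-ε) * (u ^ (2 / (q:ℝ)) * v ^ 2) ≤ (u * v ^ (2 * q)) ^ κ₂ * u ^ κ₁ := by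
  have hn0 : 0 < n := by linarith
  have hX0 : 0 < u ^ (2 / (q:ℝ)) * v ^ 2 := by linarith
  have e1 : n ^ (-(κ₂ - κ₁)) = n ^ (-(κ₂ - 1 / q)) * n ^ (-(1 / q - κ₁)) := by
    rw [← Real.rpow_add hn0]
    congr 1
    ring
  have e2 : u ^ (2 / (q:ℝ)) = u ^ (1 / (q:ℝ)) * u ^ (1 / (q:ℝ)) := by
    rw [← Real.rpow_add hu0]
    congr 1
    ring
  calc n ^ (-ε) * (u ^ (2 / (q:ℝ)) * v ^ 2) ≤ n ^ (-(κ₂ - κ₁)) * (u ^ (2 / (q:ℝ)) * v ^ 2) := by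
        refine mul_le_mul_of_nonneg_right ?_ hX0.le
        exact Real.rpow_le_rpow_of_exponent_le hn1 (by linarith)
    _ = (n ^ (-(κ₂ - 1 / q)) * (u ^ (1 / (q:ℝ)) * v ^ 2)) *
          (n ^ (-(1 / q - κ₁)) * u ^ (1 / (q:ℝ))) := by
        rw [e1, e2]
        ring
    _ ≤ _ := mul_le_mul (pow_cmp1 hq0 hn0 hu0 hun hv0 hκ2q hX1) (pow_cmp2 hn0 hu0 hun hκ1q)
        (by positivity) (by positivity)

/-- lower bound of the radius of the selected ball -/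
theorem radius_ge {D : ℕ} {n N u v ρ s C κ₂ : ℝ} (hN0 : 0 < N) (hu : u = n / N) (hu0 : 0 < u)
    (hv0 : 0 < v) (hρ0 : 0 < ρ) (hC0 : 0 < C) (hsD : 0 < (D:ℝ) - s) (hκ₂ : κ₂ = 1 / ((D:ℝ) - s))
    (h13 : n * ρ ^ s ≤ C * (ρ / v) ^ D * N) : (u * v ^ D / C) ^ κ₂ ≤ ρ := by
  have hκ₂0 : 0 < κ₂ := by rw [hκ₂]; positivity
  have h14 : ρ ^ ((D:ℝ) - s) = ρ ^ D / ρ ^ s := by
    rw [Real.rpow_sub hρ0, Real.rpow_natCast]
  have hρs : 0 < ρ ^ s := by positivity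
  have h12 : u * v ^ D / C ≤ ρ ^ ((D:ℝ) - s) := by
    rw [h14, div_le_div_iff₀ hC0 hρs]
    have h15 : n * ρ ^ s * v ^ D ≤ C * ρ ^ D * N := by
      calc n * ρ ^ s * v ^ D ≤ C * (ρ / v) ^ D * N * v ^ D :=
            mul_le_mul_of_nonneg_right h13 (by positivity)
        _ = _ := by
            rw [div_pow]
            field_simp
    calc u * v ^ D * ρ ^ s = (n * ρ ^ s * v ^ D) / N := by rw [hu]; ring
      _ ≤ (C * ρ ^ D * N) / N := div_le_div_of_nonneg_right h15 hN0.le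
      _ = ρ ^ D * C := by field_simp
  calc (u * v ^ D / C) ^ κ₂ ≤ (ρ ^ ((D:ℝ) - s)) ^ κ₂ :=
        Real.rpow_le_rpow (by positivity) h12 hκ₂0.le
    _ = ρ := by
        rw [← Real.rpow_mul hρ0.le, hκ₂, mul_one_div_cancel hsD.ne', Real.rpow_one]

/-- the selected ball: distances -/
theorem sel_dist {q : ℕ} {s : ℝ} (hs0 : 0 < s) {A : ℕ} {c : ℝ}
    (hmain : ∀ (P : Finset (Ed (2 * q))) (x₀ : Ed (2 * q)) (R δ K : ℝ),
      2 ≤ P.card → 0 < R → 0 < δ → δ ≤ 1 → 1 ≤ K → (∀ p ∈ P, dist p x₀ ≤ R) →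
      (∀ x, ∀ r : ℝ, δ * R ≤ r → r ≤ R → (cnt P x r : ℝ) ≤ K * P.card * (r / R) ^ s) →
      ∃ T : Finset ℝ, (∀ t ∈ T, ∃ p ∈ P, ∃ p' ∈ P, p ≠ p' ∧ dist p p' = t) ∧
        (∀ t ∈ T, ∀ t' ∈ T, t ≠ t' → δ * R < |t - t'|) ∧ c / (K ^ A * δ) ≤ T.card)
    (P : Finset (Ed (2 * q))) (x₀ : Ed (2 * q)) {R N ρ₀ : ℝ} (hR : 0 < R) (hρ₀0 : 0 < ρ₀)
    (hρ₀1 : ρ₀ ≤ 1) (hP : 0 < P.card) (hPR : ∀ p ∈ P, dist p x₀ ≤ R) (hN1 : 1 ≤ N)
    (hρ₀N : (P.card : ℝ) * ρ₀ ^ s = 4 * N) :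
    ∃ (x : Ed (2 * q)) (ρ : ℝ), 0 < ρ ∧ (P.card : ℝ) * ρ ^ s ≤ 2 * cnt P x (ρ * R) ∧
      2 * N ≤ cnt P x (ρ * R) ∧ c / 2 ^ A * (ρ * ρ₀⁻¹) ≤ ((DS P).ncard : ℝ) := by
  classical
  obtain ⟨x, ρ, h1, h2, h3, h4⟩ := exists_sel P x₀ hρ₀0 hρ₀1 hs0 hP hPR
  have hρ0 : 0 < ρ := hρ₀0.trans_le h1
  have hPc : (0:ℝ) ≤ P.card := Nat.cast_nonneg _
  have h5 : 2 * N ≤ cnt P x (ρ * R) := by
    have h6 : ρ₀ ^ s ≤ ρ ^ s := Real.rpow_le_rpow hρ₀0.le h1 hs0.le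
    have h8 : (P.card : ℝ) * ρ₀ ^ s ≤ P.card * ρ ^ s := mul_le_mul_of_nonneg_left h6 hPc
    linarith
  refine ⟨x, ρ, hρ0, h3, h5, ?_⟩
  set P' := P.filter fun p => dist p x ≤ ρ * R with hP'
  have hP'c : cnt P x (ρ * R) = P'.card := rfl
  rw [hP'c] at h3 h4 h5
  have hP'2 : 2 ≤ P'.card := by
    have : (2:ℝ) ≤ P'.card := by linarith
    exact_mod_cast this
  have hδ1 : ρ₀ / ρ ≤ 1 := (div_le_one hρ0).2 h1
  obtain ⟨T, hT, _, hTc⟩ := hmain P' x (ρ * R) (ρ₀ / ρ) 2 hP'2 (by positivity) (by positivity) hδ1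
    (by norm_num) (fun p hp => (Finset.mem_filter.1 hp).2) (by
      intro y r' hr1 hr2
      have h17 : ρ₀ / ρ * (ρ * R) = ρ₀ * R := by field_simp
      rw [h17] at hr1
      have h18 : ρ₀ ≤ r' / R := by rw [le_div_iff₀ hR]; exact hr1
      have h19 : r' / R ≤ 1 := by
        rw [div_le_one hR]
        exact hr2.trans (mul_le_of_le_one_left hR.le h2)
      have h20 := h4 y (r' / R) h18 h19
      rw [div_mul_cancel₀ _ hR.ne'] at h20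
      have h21 : r' / R / ρ = r' / (ρ * R) := by
        rw [div_div, mul_comm R ρ]
      rw [h21] at h20
      exact le_trans (Nat.cast_le.2 (cnt_le_of_sub (Finset.filter_subset _ _) y r')) h20)
  have h22 : (T.card : ℝ) ≤ ((DS P).ncard : ℝ) := by
    have : T.card ≤ (DS P).ncard :=
      card_le_DS fun t ht => DS_mono (Finset.filter_subset _ _) (hT t ht)
    exact_mod_cast this
  have h23 : c / (2 ^ A * (ρ₀ / ρ)) = c / 2 ^ A * (ρ * ρ₀⁻¹) := by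
    field_simp
  rw [← h23]
  exact hTc.trans h22

/-- **the one-scale inequality** -/
theorem mainIII {q : ℕ} (hq : 1 ≤ q) {ε : ℝ} (hε : 0 < ε) :
    ∃ c : ℝ, 0 < c ∧ ∀ (P : Finset (Ed (2 * q))) (x₀ : Ed (2 * q)) (R r N : ℝ),
      2 ≤ P.card → 0 < r → r ≤ R → (∀ p ∈ P, dist p x₀ ≤ R) → (∀ x, (cnt P x r : ℝ) ≤ N) →
      c * (P.card : ℝ) ^ (-ε) * ((P.card : ℝ) / N) ^ (2 / (q:ℝ)) * (r / R) ^ 2 ≤
        ((DS P).ncard : ℝ) := by
  classical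
  have hq0 : (1:ℝ) ≤ q := by exact_mod_cast hq
  obtain ⟨s, hqs, hsq, hκ⟩ := expo hq0 hε
  have hs0 : 0 < s := by linarith
  have hDr : ((2 * q : ℕ) : ℝ) = 2 * q := by push_cast; ring
  have hsD : 0 < ((2 * q : ℕ) : ℝ) - s := by rw [hDr]; linarith
  obtain ⟨A, c, hc, hmain⟩ := mainI hq hqs
  set C : ℝ := 2 * (2 * ((2 * q : ℕ) : ℝ) + 5) ^ (2 * q) with hC
  have hC0 : 0 < C := by positivity
  set κ₁ : ℝ := 1 / s with hκ₁
  set κ₂ : ℝ := 1 / (((2 * q : ℕ) : ℝ) - s) with hκ₂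
  have hκ₁0 : 0 < κ₁ := by positivity
  have hκ₂0 : 0 < κ₂ := by positivity
  have hκ1q : κ₁ ≤ 1 / q := one_div_le_one_div_of_le (by linarith) hqs.le
  have hκ2q : 1 / (q:ℝ) ≤ κ₂ := by
    refine one_div_le_one_div_of_le hsD ?_
    rw [hDr]; linarith
  have hκ' : κ₂ - κ₁ ≤ ε := by rw [hκ₁, hκ₂, hDr]; exact hκ
  set c₂ : ℝ := c / 2 ^ A * (C⁻¹ ^ κ₂ * (4:ℝ)⁻¹ ^ κ₁) with hc₂
  have hc₂0 : 0 < c₂ := by positivity
  refine ⟨min (1 / 16) c₂, lt_min (by norm_num) hc₂0, ?_⟩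
  intro P x₀ R r N hP hr hrR hPR hN
  have hR : 0 < R := hr.trans_le hrR
  have hn2 : (2:ℝ) ≤ P.card := by exact_mod_cast hP
  have hn0 : (0:ℝ) < P.card := by linarith
  have hn1 : (1:ℝ) ≤ P.card := by linarith
  have hDS1 : (1:ℝ) ≤ ((DS P).ncard : ℝ) := by exact_mod_cast one_le_DS hP
  have hN1 : 1 ≤ N := by
    obtain ⟨p, hp⟩ : P.Nonempty := Finset.card_pos.1 (by omega)
    refine le_trans ?_ (hN p)
    have : 0 < cnt P p r := by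
      unfold cnt
      refine Finset.card_pos.2 ⟨p, Finset.mem_filter.2 ⟨hp, ?_⟩⟩
      rw [dist_self]; exact hr.le
    exact_mod_cast this
  have hN0 : 0 < N := by linarith
  obtain ⟨u, hu⟩ : ∃ u : ℝ, u = (P.card : ℝ) / N := ⟨_, rfl⟩
  obtain ⟨v, hv⟩ : ∃ v : ℝ, v = r / R := ⟨_, rfl⟩
  have hu0 : 0 < u := by rw [hu]; positivity
  have hun : u ≤ P.card := by rw [hu]; exact div_le_self hn0.le hN1
  have hv0 : 0 < v := by rw [hv]; positivity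
  have hv1 : v ≤ 1 := by rw [hv]; exact (div_le_one hR).2 hrR
  have hnε : (P.card : ℝ) ^ (-ε) ≤ 1 := Real.rpow_le_one_of_one_le_of_nonpos hn1 (by linarith)
  rw [← hu, ← hv]
  obtain ⟨X, hX⟩ : ∃ X : ℝ, X = u ^ (2 / (q:ℝ)) * v ^ 2 := ⟨_, rfl⟩
  have hX0 : 0 < X := by rw [hX]; positivity
  have hgoal : min (1 / 16) c₂ * (P.card : ℝ) ^ (-ε) * u ^ (2 / (q:ℝ)) * v ^ 2 =
      min (1 / 16) c₂ * ((P.card : ℝ) ^ (-ε) * X) := by rw [hX]; ring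
  rw [hgoal]
  by_cases hbig : X ≤ 16
  · calc min (1 / 16) c₂ * ((P.card : ℝ) ^ (-ε) * X) ≤ 1 / 16 * (1 * 16) := by
          refine mul_le_mul (min_le_left _ _) (mul_le_mul hnε hbig hX0.le zero_le_one)
            (by positivity) (by norm_num)
      _ = 1 := by norm_num
      _ ≤ _ := hDS1
  push Not at hbig
  -- size of `u`
  have hu4 : 4 < u := by
    have hu16 : 16 < u ^ (2 / (q:ℝ)) := by
      refine hbig.trans_le ?_
      rw [hX]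
      exact mul_le_of_le_one_right (by positivity) (pow_le_one₀ hv0.le hv1)
    by_contra hcon
    push Not at hcon
    have h1 : u ^ (2 / (q:ℝ)) ≤ 16 := by
      calc u ^ (2 / (q:ℝ)) ≤ 4 ^ (2 / (q:ℝ)) := Real.rpow_le_rpow hu0.le hcon (by positivity)
        _ ≤ 4 ^ (2:ℝ) := by
            refine Real.rpow_le_rpow_of_exponent_le (by norm_num) ?_
            rw [div_le_iff₀ (by linarith)]
            linarith
        _ = 16 := by norm_num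
    linarith
  obtain ⟨ρ₀, hρ₀⟩ : ∃ ρ₀ : ℝ, ρ₀ = (4 / u) ^ κ₁ := ⟨_, rfl⟩
  have hρ₀0 : 0 < ρ₀ := by rw [hρ₀]; positivity
  have hρ₀1 : ρ₀ ≤ 1 := by
    rw [hρ₀]
    exact Real.rpow_le_one (by positivity) ((div_le_one hu0).2 hu4.le) hκ₁0.le
  have hρ₀s : (P.card : ℝ) * ρ₀ ^ s = 4 * N := by
    rw [hρ₀, ← Real.rpow_mul (by positivity), hκ₁, one_div, inv_mul_cancel₀ hs0.ne', Real.rpow_one,
      hu]
    field_simp
  obtain ⟨x, ρ, hρ0, h3, h5, h6⟩ := sel_dist hs0 hmain P x₀ hR hρ₀0 hρ₀1 (by omega) hPR hN1 hρ₀s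
  -- the radius is larger than `r`
  have h9 : r < ρ * R := by
    by_contra hcon
    push Not at hcon
    have h10 : (cnt P x (ρ * R) : ℝ) ≤ N := (Nat.cast_le.2 (cnt_mono P x hcon)).trans (hN x)
    linarith
  -- covering
  have h10 := cover P x hr h9.le hN
  have h11 : ρ * R / r = ρ / v := by
    rw [hv]
    field_simp
  have h13 : (P.card : ℝ) * ρ ^ s ≤ C * (ρ / v) ^ (2 * q) * N := by
    calc (P.card : ℝ) * ρ ^ s ≤ 2 * cnt P x (ρ * R) := h3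
      _ ≤ 2 * (((2 * ((2 * q : ℕ) : ℝ) + 5) * (ρ * R / r)) ^ (2 * q) * N) := by linarith
      _ = _ := by rw [h11, mul_pow, hC]; ring
  have h16 := radius_ge hN0 hu hu0 hv0 hρ0 hC0 hsD hκ₂ h13
  refine le_trans ?_ h6
  have h24 : ρ₀⁻¹ = u ^ κ₁ * (4:ℝ)⁻¹ ^ κ₁ := by
    rw [hρ₀, ← Real.inv_rpow (by positivity), inv_div, div_eq_mul_inv,
      Real.mul_rpow hu0.le (by norm_num)]
  have h25 : (u * v ^ (2 * q) / C) ^ κ₂ = (u * v ^ (2 * q)) ^ κ₂ * C⁻¹ ^ κ₂ := by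
    rw [div_eq_mul_inv, Real.mul_rpow (by positivity) (by positivity)]
  have h38 : (P.card : ℝ) ^ (-ε) * X ≤ (u * v ^ (2 * q)) ^ κ₂ * u ^ κ₁ := by
    rw [hX]
    exact pow_cmp hq0 hn1 hu0 hun hv0 hκ1q hκ2q hκ' (by rw [← hX]; linarith)
  calc min (1 / 16) c₂ * ((P.card : ℝ) ^ (-ε) * X) ≤ c₂ * ((u * v ^ (2 * q)) ^ κ₂ * u ^ κ₁) :=
        mul_le_mul (min_le_right _ _) h38 (by positivity) hc₂0.le
    _ = c / 2 ^ A * (((u * v ^ (2 * q)) ^ κ₂ * C⁻¹ ^ κ₂) * (u ^ κ₁ * (4:ℝ)⁻¹ ^ κ₁)) := by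
        rw [hc₂]; ring
    _ = c / 2 ^ A * ((u * v ^ (2 * q) / C) ^ κ₂ * ρ₀⁻¹) := by rw [h25, h24]
    _ ≤ c / 2 ^ A * (ρ * ρ₀⁻¹) :=
        mul_le_mul_of_nonneg_left (mul_le_mul_of_nonneg_right h16 (inv_pos.2 hρ₀0).le)
          (by positivity)

end Vale.Agent.P054.H978b
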