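import Vale.Agent.P054.H978b.Core

/-! The discrete even dimensional Falconer theorem for arbitrary finite sets with a Frostman bound
down to a scale (helper978). -/

namespace Vale.Agent.P054.H978b

open MeasureTheory Metric Set Filter
open scoped ENNReal NNReal Topology
open Vale.Agent.P118 Vale.Agent.P118.FD

/-- a maximal separated subset -/
theorem exists_net (Δ : Finset ℝ) {ε : ℝ} (hε : 0 ≤ ε) :
    ∃ T ⊆ Δ, (∀ t ∈ T, ∀ t' ∈ T, t ≠ t' → ε < |t - t'|) ∧ ∀ t ∈ Δ, ∃ t' ∈ T, |t - t'| ≤ ε := by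
  classical
  induction Δ using Finset.induction_on with
  | empty => exact ⟨∅, Finset.Subset.refl _, by simp, by simp⟩
  | insert a Δ ha ih =>
    obtain ⟨T, hT, hsep, hnet⟩ := ih
    by_cases h : ∃ t' ∈ T, |a - t'| ≤ ε
    · refine ⟨T, hT.trans (Finset.subset_insert _ _), hsep, fun t ht => ?_⟩
      rcases Finset.mem_insert.1 ht with rfl | ht
      · exact h
      · exact hnet t ht
    · push Not at h
      refine ⟨insert a T, Finset.insert_subset_insert _ hT, ?_, fun t ht => ?_⟩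
      · intro t ht t' ht' hne
        rcases Finset.mem_insert.1 ht with h1 | h1
        · rcases Finset.mem_insert.1 ht' with h2 | h2
          · exact absurd (h1.trans h2.symm) hne
          · rw [h1]; exact h t' h2
        · rcases Finset.mem_insert.1 ht' with h2 | h2
          · rw [abs_sub_comm, h2]; exact h t h1
          · exact hsep t h1 t' h2 hne
      · rcases Finset.mem_insert.1 ht with rfl | ht
        · exact ⟨t, Finset.mem_insert_self _ _, by simpa using hε⟩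
        · obtain ⟨t', ht', hd⟩ := hnet t ht
          exact ⟨t', Finset.mem_insert_of_mem ht', hd⟩

/-- the general set -/
theorem core3 {q : ℕ} (hq : 1 ≤ q) {s : ℝ} (hs : (q:ℝ) < s) (hsd : s ≤ (2 * q : ℕ)) :
    ∃ (A : ℕ) (c : ℝ), 0 < c ∧ ∀ (P : Finset (Ed (2 * q))) (x₀ : Ed (2 * q)) (R δ K : ℝ),
      2 ≤ P.card → 0 < R → 0 < δ → δ ≤ 1 → 1 ≤ K → (∀ p ∈ P, dist p x₀ ≤ R) →
      (∀ x, ∀ r : ℝ, δ * R ≤ r → r ≤ R → (cnt P x r : ℝ) ≤ K * P.card * (r / R) ^ s) →
      ∀ T : Finset ℝ, (∀ p ∈ P, ∀ p' ∈ P, p ≠ p' → ∃ t ∈ T, |dist p p' - t| ≤ δ * R) →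
      c ≤ T.card * (K ^ A * δ) := by
  classical
  have hq0 : (1:ℝ) ≤ q := by exact_mod_cast hq
  have hs1 : 1 ≤ s := by linarith
  have hs0 : 0 < s := by linarith
  obtain ⟨A, c, hc, hcore⟩ := core2 hq hs hsd
  refine ⟨2 * A + 2, min c (1 / 64), lt_min hc (by norm_num), ?_⟩
  intro P x₀ R δ K hP hR hδ hδ1 hK hPR hfr T hT
  have hK0 : 0 < K := by linarith
  have hPc : (0:ℝ) < P.card := by
    have : 0 < P.card := by omega
    exact_mod_cast this
  have hTne : (1:ℝ) ≤ T.card := by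
    obtain ⟨p, hp, p', hp', hne⟩ := Finset.one_lt_card.1 (by omega : 1 < P.card)
    obtain ⟨t, ht, _⟩ := hT p hp p' hp' hne
    have : 0 < T.card := Finset.card_pos.2 ⟨t, ht⟩
    exact_mod_cast this
  have hKA : K ^ 2 ≤ K ^ (2 * A + 2) := pow_le_pow_right₀ hK (by omega)
  by_cases hδK : 1 / 64 < K ^ 2 * δ
  · calc min c (1 / 64) ≤ 1 / 64 := min_le_right _ _
      _ ≤ 1 * (K ^ 2 * δ) := by linarith
      _ ≤ T.card * (K ^ (2 * A + 2) * δ) := by gcongr
  push Not at hδK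
  -- the scale at which the set is not concentrated
  obtain ⟨i', hi1, hi2⟩ := exists_nat_pow_near hK (by norm_num : (1:ℝ) < 2)
  have h4i : ∀ i : ℕ, (4:ℝ) ^ i = (2 ^ i) ^ 2 := fun i => by
    rw [← pow_mul, mul_comm i 2, pow_mul]; norm_num
  set Q : ℕ → Prop := fun i => ∃ x, (P.card : ℝ) ≤ 2 ^ i * cnt P x (R * (4:ℝ)⁻¹ ^ i) with hQ
  have hQ0 : Q 0 := by
    refine ⟨x₀, ?_⟩
    have : cnt P x₀ (R * (4:ℝ)⁻¹ ^ 0) = P.card := by
      unfold cnt
      rw [pow_zero, mul_one, Finset.filter_true_of_mem hPR]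
    rw [this]
    simp
  have hQ1 : ¬ Q (i' + 1) := by
    rintro ⟨x, hx⟩
    have h1 : (4:ℝ) ^ (i' + 1) ≤ 4 * K ^ 2 := by
      rw [pow_succ, h4i, mul_comm]
      gcongr
    have h2 : δ * (4:ℝ) ^ (i' + 1) ≤ 1 := by
      calc δ * (4:ℝ) ^ (i' + 1) ≤ δ * (4 * K ^ 2) := by gcongr
        _ = 4 * (K ^ 2 * δ) := by ring
        _ ≤ 1 := by linarith
    have h3 : δ * R ≤ R * (4:ℝ)⁻¹ ^ (i' + 1) := by
      rw [inv_pow, mul_comm δ R]
      refine mul_le_mul_of_nonneg_left ?_ hR.le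
      rw [le_inv_comm₀ hδ (by positivity), ← one_div, le_div_iff₀ hδ, mul_comm]
      exact h2
    have h4 : R * (4:ℝ)⁻¹ ^ (i' + 1) ≤ R :=
      mul_le_of_le_one_right hR.le (pow_le_one₀ (by norm_num) (by norm_num))
    have h5 := hfr x _ h3 h4
    have h6 : (R * (4:ℝ)⁻¹ ^ (i' + 1) / R) ^ s ≤ (4:ℝ)⁻¹ ^ (i' + 1) := by
      rw [mul_div_cancel_left₀ _ hR.ne']
      calc ((4:ℝ)⁻¹ ^ (i' + 1)) ^ s ≤ ((4:ℝ)⁻¹ ^ (i' + 1)) ^ (1:ℝ) :=
            Real.rpow_le_rpow_of_exponent_ge (by positivity)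
              (pow_le_one₀ (by norm_num) (by norm_num)) hs1
        _ = _ := Real.rpow_one _
    have h7 : (P.card : ℝ) ≤ 2 ^ (i' + 1) * (K * P.card * (4:ℝ)⁻¹ ^ (i' + 1)) := by
      refine hx.trans (mul_le_mul_of_nonneg_left (h5.trans ?_) (by positivity))
      exact mul_le_mul_of_nonneg_left h6 (by positivity)
    have h8 : 2 ^ (i' + 1) * (K * P.card * (4:ℝ)⁻¹ ^ (i' + 1)) =
        (K * ((2:ℝ) ^ (i' + 1))⁻¹) * P.card := by
      rw [inv_pow, h4i (i' + 1)]
      field_simp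
    rw [h8] at h7
    have h9 : K * ((2:ℝ) ^ (i' + 1))⁻¹ < 1 := by
      rw [← div_eq_mul_inv, div_lt_one (by positivity)]
      exact hi2
    nlinarith
  have hex : ∃ j, ¬ Q j := ⟨i' + 1, hQ1⟩
  obtain ⟨i, hi, hQi, hQi'⟩ : ∃ i ≤ i', Q i ∧ ¬ Q (i + 1) := by
    refine ⟨Nat.find hex - 1, ?_, ?_, ?_⟩
    · have := Nat.find_min' hex hQ1
      omega
    · by_contra hcon
      have h1 := Nat.find_min' hex hcon
      have h2 : Nat.find hex = 0 := by omega
      have h3 := Nat.find_spec hex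
      rw [h2] at h3
      exact h3 hQ0
    · have h1 : Nat.find hex ≠ 0 := by
        intro h0
        have h3 := Nat.find_spec hex
        rw [h0] at h3
        exact h3 hQ0
      have h2 : Nat.find hex - 1 + 1 = Nat.find hex := by omega
      rw [h2]
      exact Nat.find_spec hex
  obtain ⟨x, hx⟩ := hQi
  have h2i : (2:ℝ) ^ i ≤ K := (pow_le_pow_right₀ (by norm_num) hi).trans hi1
  set ρ : ℝ := R * (4:ℝ)⁻¹ ^ i with hρ
  have hρ0 : 0 < ρ := by positivity
  have hρR : ρ ≤ R := mul_le_of_le_one_right hR.le (pow_le_one₀ (by norm_num) (by norm_num))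
  have hRρ : R = ρ * 4 ^ i := by
    rw [hρ, mul_assoc, ← mul_pow]; norm_num
  set P' : Finset (Ed (2 * q)) := P.filter fun p => dist p x ≤ ρ with hP'
  have hP'c : cnt P x ρ = P'.card := rfl
  rw [hP'c] at hx
  have hP'K : (P.card : ℝ) ≤ K * P'.card :=
    hx.trans (mul_le_mul_of_nonneg_right h2i (Nat.cast_nonneg _))
  have hP'0 : (0:ℝ) < P'.card := by
    by_contra hcon
    push Not at hcon
    nlinarith
  -- rescaling
  set f : Ed (2 * q) → Ed (2 * q) := fun p => ρ⁻¹ • (p - x) with hf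
  have hfd : ∀ p p', dist (f p) (f p') = ρ⁻¹ * dist p p' := by
    intro p p'
    rw [hf]
    simp only [dist_smul₀, dist_sub_right, norm_inv, Real.norm_eq_abs, abs_of_pos hρ0]
  have hfy : ∀ p y, dist (f p) y = ρ⁻¹ * dist p (x + ρ • y) := by
    intro p y
    have h1 : y = f (x + ρ • y) := by
      rw [hf]
      simp only [add_sub_cancel_left]
      rw [smul_smul, inv_mul_cancel₀ hρ0.ne', one_smul]
    conv_lhs => rw [h1]
    exact hfd _ _
  have hfinj : Function.Injective f := by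
    intro p p' h
    have h1 := hfd p p'
    rw [h, dist_self] at h1
    have h2 : dist p p' = 0 := by
      rcases mul_eq_zero.1 h1.symm with h3 | h3
      · exact absurd h3 (inv_pos.2 hρ0).ne'
      · exact h3
    exact dist_eq_zero.1 h2
  set P'' : Finset (Ed (2 * q)) := P'.image f with hP''
  have hcard : P''.card = P'.card := Finset.card_image_of_injective _ hfinj
  have hcnt : ∀ y r, cnt P'' y r ≤ cnt P (x + ρ • y) (ρ * r) := by
    intro y r
    unfold cnt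
    rw [hP'', Finset.filter_image]
    refine Finset.card_image_le.trans (Finset.card_le_card ?_)
    intro p hp
    obtain ⟨h1, h2⟩ := Finset.mem_filter.1 hp
    rw [hfy, inv_mul_le_iff₀ hρ0] at h2
    exact Finset.mem_filter.2 ⟨(Finset.mem_filter.1 h1).1, h2⟩
  set δ' : ℝ := δ * 4 ^ i with hδ'
  have h4K : (4:ℝ) ^ i ≤ K ^ 2 := by
    rw [h4i]
    exact pow_le_pow_left₀ (by positivity) h2i 2
  have hδρ : δ * R = ρ * δ' := by rw [hRρ, hδ']; ring
  have hδ'1 : δ' ≤ 1 / 64 := by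
    calc δ * 4 ^ i ≤ δ * K ^ 2 := by gcongr
      _ = K ^ 2 * δ := by ring
      _ ≤ _ := hδK
  have key := hcore P'' δ' (K ^ 2) (by
      rw [← Finset.card_pos, hcard]; exact_mod_cast hP'0) (by positivity) (by linarith)
    (one_le_pow₀ hK) (by
      intro p hp
      obtain ⟨a, ha, rfl⟩ := Finset.mem_image.1 hp
      have h1 := (Finset.mem_filter.1 ha).2
      rw [hfy, smul_zero, add_zero, inv_mul_le_iff₀ hρ0, mul_one]
      exact h1) (by
      intro y
      have h1 : ¬ ((P.card : ℝ) ≤ 2 ^ (i + 1) * cnt P (x + ρ • y) (R * (4:ℝ)⁻¹ ^ (i + 1))) :=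
        fun h => hQi' ⟨_, h⟩
      have h2 : ρ * (1 / 4) = R * (4:ℝ)⁻¹ ^ (i + 1) := by rw [hρ, pow_succ]; ring
      have h3 : (cnt P'' y (1 / 4) : ℝ) ≤ cnt P (x + ρ • y) (R * (4:ℝ)⁻¹ ^ (i + 1)) := by
        rw [← h2]
        exact_mod_cast hcnt y (1 / 4)
      push Not at h1
      have h4 : (2:ℝ) ^ i * (2 * cnt P (x + ρ • y) (R * (4:ℝ)⁻¹ ^ (i + 1))) <
          2 ^ i * P'.card := by
        calc (2:ℝ) ^ i * (2 * cnt P (x + ρ • y) (R * (4:ℝ)⁻¹ ^ (i + 1)))
            = 2 ^ (i + 1) * cnt P (x + ρ • y) (R * (4:ℝ)⁻¹ ^ (i + 1)) := by rw [pow_succ]; ring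
          _ < P.card := h1
          _ ≤ _ := hx
      have h5 := lt_of_mul_lt_mul_left h4 (by positivity)
      rw [hcard]
      linarith) (by
      intro y r hr
      have hr0 : 0 < r := lt_of_lt_of_le (by positivity) hr
      rw [hcard]
      rcases le_or_gt (ρ * r) R with h1 | h1
      · have h2 : δ * R ≤ ρ * r := by
          rw [hδρ]
          exact mul_le_mul_of_nonneg_left hr hρ0.le
        have h3 := hfr (x + ρ • y) (ρ * r) h2 h1
        have h4 : (ρ * r / R) ^ s ≤ r ^ s := by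
          refine Real.rpow_le_rpow (by positivity) ?_ hs0.le
          rw [div_le_iff₀ hR, mul_comm ρ r]
          exact mul_le_mul_of_nonneg_left hρR hr0.le
        calc (cnt P'' y r : ℝ) ≤ cnt P (x + ρ • y) (ρ * r) := by exact_mod_cast hcnt y r
          _ ≤ K * P.card * (ρ * r / R) ^ s := h3
          _ ≤ K * (K * P'.card) * r ^ s :=
              mul_le_mul (mul_le_mul_of_nonneg_left hP'K hK0.le) h4 (by positivity)
                (mul_nonneg hK0.le (mul_nonneg hK0.le hP'0.le))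
          _ = _ := by ring
      · have h2 : 1 ≤ r := by
          by_contra hcon
          push Not at hcon
          have : ρ * r ≤ ρ * 1 := mul_le_mul_of_nonneg_left hcon.le hρ0.le
          linarith
        have h3 : 1 ≤ r ^ s := Real.one_le_rpow h2 hs0.le
        have h4 : cnt P'' y r ≤ P'.card := by
          rw [← hcard]
          exact Finset.card_filter_le _ _
        have h5 : (1:ℝ) ≤ K ^ 2 * r ^ s :=
          one_le_mul_of_one_le_of_one_le (one_le_pow₀ hK) h3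
        calc (cnt P'' y r : ℝ) ≤ 1 * P'.card := by rw [one_mul]; exact_mod_cast h4
          _ ≤ _ := mul_le_mul_of_nonneg_right h5 (Nat.cast_nonneg _))
    (T.image fun t => ρ⁻¹ * t) (by
      intro p hp p' hp' hne
      obtain ⟨a, ha, rfl⟩ := Finset.mem_image.1 hp
      obtain ⟨b, hb, rfl⟩ := Finset.mem_image.1 hp'
      have hab : a ≠ b := fun h => hne (by rw [h])
      obtain ⟨t, ht, htd⟩ := hT a (Finset.mem_filter.1 ha).1 b (Finset.mem_filter.1 hb).1 hab
      refine ⟨ρ⁻¹ * t, Finset.mem_image_of_mem _ ht, ?_⟩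
      rw [hfd, ← mul_sub, abs_mul, abs_of_pos (inv_pos.2 hρ0), inv_mul_le_iff₀ hρ0, ← hδρ]
      exact htd)
  have hTc : ((T.image fun t => ρ⁻¹ * t).card : ℝ) ≤ T.card := by
    exact_mod_cast Finset.card_image_le
  have hKA' : 0 < (K ^ 2) ^ A := by positivity
  have h10 : c ≤ T.card * δ' * (K ^ 2) ^ A := by
    have h11 : c * ((K ^ 2) ^ A)⁻¹ ≤ T.card * δ' :=
      key.trans (mul_le_mul_of_nonneg_right hTc (by positivity))
    rwa [← div_eq_mul_inv, div_le_iff₀ hKA'] at h11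
  calc min c (1 / 64) ≤ c := min_le_left _ _
    _ ≤ T.card * δ' * (K ^ 2) ^ A := h10
    _ ≤ T.card * (δ * K ^ 2) * (K ^ 2) ^ A := by
        rw [hδ']
        exact mul_le_mul_of_nonneg_right (mul_le_mul_of_nonneg_left
          (mul_le_mul_of_nonneg_left h4K hδ.le) (Nat.cast_nonneg _)) hKA'.le
    _ = T.card * (K ^ (2 * A + 2) * δ) := by
        rw [← pow_mul, pow_add]
        ring

/-- **the discrete even dimensional Falconer theorem** -/
theorem mainI {q : ℕ} (hq : 1 ≤ q) {s : ℝ} (hs : (q:ℝ) < s) :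
    ∃ (A : ℕ) (c : ℝ), 0 < c ∧ ∀ (P : Finset (Ed (2 * q))) (x₀ : Ed (2 * q)) (R δ K : ℝ),
      2 ≤ P.card → 0 < R → 0 < δ → δ ≤ 1 → 1 ≤ K → (∀ p ∈ P, dist p x₀ ≤ R) →
      (∀ x, ∀ r : ℝ, δ * R ≤ r → r ≤ R → (cnt P x r : ℝ) ≤ K * P.card * (r / R) ^ s) →
      ∃ T : Finset ℝ, (∀ t ∈ T, ∃ p ∈ P, ∃ p' ∈ P, p ≠ p' ∧ dist p p' = t) ∧
        (∀ t ∈ T, ∀ t' ∈ T, t ≠ t' → δ * R < |t - t'|) ∧ c / (K ^ A * δ) ≤ T.card := by
  classical
  have hq0 : (1:ℝ) ≤ q := by exact_mod_cast hq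
  set s' : ℝ := min s (2 * q : ℕ) with hs'
  have h1 : (q:ℝ) < s' := by
    refine lt_min hs ?_
    push_cast
    linarith
  obtain ⟨A, c, hc, hcore⟩ := core3 hq h1 (min_le_right _ _)
  refine ⟨A, c, hc, ?_⟩
  intro P x₀ R δ K hP hR hδ hδ1 hK hPR hfr
  set Δ : Finset ℝ := (P.offDiag).image fun z => dist z.1 z.2 with hΔ
  obtain ⟨T, hTΔ, hsep, hnet⟩ := exists_net Δ (mul_pos hδ hR).le
  refine ⟨T, fun t ht => ?_, hsep, ?_⟩
  · obtain ⟨z, hz, rfl⟩ := Finset.mem_image.1 (hTΔ ht)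
    obtain ⟨h2, h3, h4⟩ := Finset.mem_offDiag.1 hz
    exact ⟨z.1, h2, z.2, h3, h4, rfl⟩
  · have h5 := hcore P x₀ R δ K hP hR hδ hδ1 hK hPR (by
      intro x r hr1 hr2
      have hr0 : 0 < r := lt_of_lt_of_le (mul_pos hδ hR) hr1
      refine (hfr x r hr1 hr2).trans ?_
      refine mul_le_mul_of_nonneg_left ?_ (by positivity)
      exact Real.rpow_le_rpow_of_exponent_ge (by positivity) ((div_le_one hR).2 hr2)
        (min_le_left _ _)) T (by
      intro p hp p' hp' hne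
      exact hnet _ (Finset.mem_image.2 ⟨(p, p'), Finset.mem_offDiag.2 ⟨hp, hp', hne⟩, rfl⟩))
    rw [div_le_iff₀ (by positivity)]
    exact h5

end Vale.Agent.P054.H978b
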